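import Vale.Agent.P066.Theta.Uncond
import Vale.Agent.P066.Theta.H615.Chart

/-!
# Conjugation-integral elements

`Lam` = Laurent polynomials in `v` (rational coefficients) inside `K`; `LamS B` = series with
coefficients in `Lam`.  `CI G`: for every `s` the series `(twist s G) G⁻¹` and `G⁻¹ (twist s G)`
have coefficients in `Lam`.  `CI` is closed under products and inverses.
-/

set_option autoImplicit false

open Finset

namespace Vale.Agent.P066.Theta

noncomputable section

variable {r : ℕ} {B : Matrix (Fin r) (Fin r) ℤ}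

open QSeries

/-- Laurent polynomials in `v` with rational coefficients. -/
def Lam : Subring K := (Algebra.adjoin ℚ ({v, v⁻¹} : Set K)).toSubring

theorem v_mem_Lam : v ∈ Lam := Algebra.subset_adjoin (by simp)

theorem v_inv_mem_Lam : v⁻¹ ∈ Lam := Algebra.subset_adjoin (by simp)

theorem zpow_mem_Lam (n : ℤ) : v ^ n ∈ Lam := by
  cases n with
  | ofNat n =>
    rw [Int.ofNat_eq_natCast, zpow_natCast]
    exact Lam.pow_mem v_mem_Lam n
  | negSucc n =>
    rw [zpow_negSucc, ← inv_pow]
    exact Lam.pow_mem v_inv_mem_Lam _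

/-- Series with coefficients in `Lam`. -/
def LamS (B : Matrix (Fin r) (Fin r) ℤ) : Subring (QSeries B) where
  carrier := {f | ∀ γ, f γ ∈ Lam}
  mul_mem' := by
    intro f g hf hg γ
    rw [mul_apply]
    exact Lam.sum_mem fun p _ => Lam.mul_mem (Lam.mul_mem (zpow_mem_Lam _) (hf _)) (hg _)
  one_mem' := by
    intro γ
    rw [one_apply]
    split_ifs
    · exact Lam.one_mem
    · exact Lam.zero_mem
  add_mem' := fun hf hg γ => Lam.add_mem (hf γ) (hg γ)
  zero_mem' := fun _ => Lam.zero_mem
  neg_mem' := fun hf γ => Lam.neg_mem (hf γ)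

theorem mem_LamS {f : QSeries B} : f ∈ LamS B ↔ ∀ γ, f γ ∈ Lam := Iff.rfl

theorem mono_mem_LamS (γ : Fin r →₀ ℕ) : (mono γ : QSeries B) ∈ LamS B := by
  intro η
  rw [mono_apply]
  split_ifs
  · exact Lam.one_mem
  · exact Lam.zero_mem

theorem twist_mem_LamS (s : Fin r → ℤ) {f : QSeries B} (hf : f ∈ LamS B) :
    twist s f ∈ LamS B := fun γ => Lam.mul_mem (zpow_mem_Lam _) (hf γ)

theorem smul_mem_LamS {c : K} (hc : c ∈ Lam) {f : QSeries B} (hf : f ∈ LamS B) :
    c • f ∈ LamS B := fun γ => Lam.mul_mem hc (hf γ)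

theorem inverse_mem_LamS {f : QSeries B} (hf : f ∈ LamS B) (h0 : f 0 = 1) :
    Ring.inverse f ∈ LamS B := by
  have hu : IsUnit f := isUnit_of_one h0
  have h1 := Ring.mul_inverse_cancel f hu
  rw [mem_LamS]
  intro γ
  induction γ using WellFoundedLT.induction with
  | ind γ ih =>
    by_cases hγ : γ = 0
    · rw [hγ, inverse_zero_apply h0]
      exact Lam.one_mem
    have h2 := congrFun h1 γ
    rw [mul_apply_extreme _ _ hγ, one_apply, if_neg hγ, h0, inverse_zero_apply h0, one_mul,
      mul_one] at h2
    have h3 : (Ring.inverse f) γ = - f γ -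
        ∑ p ∈ (antidiagonal γ).filter (fun p => p.1 ≠ 0 ∧ p.2 ≠ 0),
        v ^ omega B (toZ p.1) (toZ p.2) * f p.1 * (Ring.inverse f) p.2 := by
      linear_combination h2
    rw [h3]
    refine Lam.sub_mem (Lam.neg_mem (hf γ)) (Lam.sum_mem fun p hp => ?_)
    rw [mem_filter, HasAntidiagonal.mem_antidiagonal] at hp
    exact Lam.mul_mem (Lam.mul_mem (zpow_mem_Lam _) (hf _))
      (ih _ (lt_of_antidiagonal_snd hp.1 hp.2.1))

/-- A coefficientwise criterion: closedness of `LamS`. -/
theorem mem_LamS_of_agree {f : QSeries B}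
    (h : ∀ γ, ∃ f' : QSeries B, f' ∈ LamS B ∧ Agree γ f f') : f ∈ LamS B := by
  intro γ
  obtain ⟨f', h1, h2⟩ := h γ
  rw [h2 γ le_rfl]
  exact h1 γ

/-- Truncation: the part of `F` in degrees `≤ γ` as a finite sum of monomials. -/
def trunc (γ : Fin r →₀ ℕ) (F : QSeries B) : QSeries B :=
  ∑ c ∈ Finset.Iic γ, F c • (mono c : QSeries B)

theorem agree_trunc (γ : Fin r →₀ ℕ) (F : QSeries B) : Agree γ F (trunc γ F) := by
  intro η hη
  rw [trunc, QSeries.sum_apply, Finset.sum_eq_single η]
  · rw [smul_apply, mono_self, mul_one]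
  · intro c _ hc
    rw [smul_apply, mono_apply, if_neg (fun h => hc h.symm), mul_zero]
  · intro h
    exact absurd (Finset.mem_Iic.2 hη) h

/-- If `P * mono c * R ∈ LamS` for all `c` then `P * F * R ∈ LamS` for all `F ∈ LamS`. -/
theorem sandwich_mem {P R : QSeries B} (h : ∀ c, P * mono c * R ∈ LamS B) {F : QSeries B}
    (hF : F ∈ LamS B) : P * F * R ∈ LamS B := by
  apply mem_LamS_of_agree
  intro γ
  refine ⟨P * trunc γ F * R, ?_, ?_⟩
  · rw [trunc, Finset.mul_sum, Finset.sum_mul]
    refine Subring.sum_mem _ fun c _ => ?_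
    rw [mul_smul_comm, smul_mul_assoc]
    exact smul_mem_LamS (hF c) (h c)
  · exact ((Agree.rfl').mul (agree_trunc γ F)).mul Agree.rfl'

theorem inverse_mul' {f g : QSeries B} (hf : IsUnit f) (hg : IsUnit g) :
    Ring.inverse (f * g) = Ring.inverse g * Ring.inverse f := by
  apply (hf.mul hg).mul_left_cancel
  rw [Ring.mul_inverse_cancel _ (hf.mul hg), mul_assoc, ← mul_assoc g,
    Ring.mul_inverse_cancel _ hg, one_mul, Ring.mul_inverse_cancel _ hf]

theorem inverse_inverse' {f : QSeries B} (hf : IsUnit f) :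
    Ring.inverse (Ring.inverse f) = f := by
  apply hf.ringInverse.mul_left_cancel
  rw [Ring.mul_inverse_cancel _ hf.ringInverse, Ring.inverse_mul_cancel _ hf]

/-- Conjugation-integral elements. -/
structure CI (G : QSeries B) : Prop where
  zero : G 0 = 1
  left : ∀ s : Fin r → ℤ, twist s G * Ring.inverse G ∈ LamS B
  right : ∀ s : Fin r → ℤ, Ring.inverse G * twist s G ∈ LamS B

namespace CI

variable {G H : QSeries B}

theorem isUnit (h : CI G) : IsUnit G := isUnit_of_one h.zero

theorem twist_isUnit (h : CI G) (s : Fin r → ℤ) : IsUnit (twist s G) :=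
  isUnit_of_one (by rw [twist_apply_zero, h.zero])

theorem one : CI (1 : QSeries B) where
  zero := one_zero
  left s := by
    rw [twist_one, Ring.inverse_one, mul_one]
    exact (LamS B).one_mem
  right s := by
    rw [twist_one, Ring.inverse_one, mul_one]
    exact (LamS B).one_mem

/-- `(twist s G)⁻¹ G ∈ LamS`. -/
theorem left' (h : CI G) (s : Fin r → ℤ) : Ring.inverse (twist s G) * G ∈ LamS B := by
  have h1 : Ring.inverse (twist s G) * G = Ring.inverse (Ring.inverse G * twist s G) := by
    apply (h.twist_isUnit s).mul_left_cancel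
    apply h.isUnit.ringInverse.mul_left_cancel
    have h2 : Ring.inverse G * (twist s G * Ring.inverse (Ring.inverse G * twist s G)) = 1 := by
      rw [← mul_assoc]
      exact Ring.mul_inverse_cancel _ (h.isUnit.ringInverse.mul (h.twist_isUnit s))
    rw [h2, ← mul_assoc (twist s G), Ring.mul_inverse_cancel _ (h.twist_isUnit s), one_mul,
      Ring.inverse_mul_cancel _ h.isUnit]
  rw [h1]
  apply inverse_mem_LamS (h.right s)
  rw [mul_zero_apply, twist_apply_zero, h.zero, inverse_zero_apply h.zero, one_mul]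

/-- `G (twist s G)⁻¹ ∈ LamS`. -/
theorem right' (h : CI G) (s : Fin r → ℤ) : G * Ring.inverse (twist s G) ∈ LamS B := by
  have h1 : G * Ring.inverse (twist s G) = Ring.inverse (twist s G * Ring.inverse G) := by
    apply (h.twist_isUnit s).mul_right_cancel
    apply h.isUnit.ringInverse.mul_right_cancel
    have h2 : Ring.inverse (twist s G * Ring.inverse G) * twist s G * Ring.inverse G = 1 := by
      rw [mul_assoc]
      exact Ring.inverse_mul_cancel _ ((h.twist_isUnit s).mul h.isUnit.ringInverse)
    rw [h2, mul_assoc G, Ring.inverse_mul_cancel _ (h.twist_isUnit s), mul_one,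
      Ring.mul_inverse_cancel _ h.isUnit]
  rw [h1]
  apply inverse_mem_LamS (h.left s)
  rw [mul_zero_apply, twist_apply_zero, h.zero, inverse_zero_apply h.zero, one_mul]

/-- conjugation `F ↦ G F G⁻¹` preserves `LamS` -/
theorem conj_mem (hB : B.transpose = -B) (h : CI G) {F : QSeries B} (hF : F ∈ LamS B) :
    G * F * Ring.inverse G ∈ LamS B := by
  apply sandwich_mem _ hF
  intro c
  rw [mul_mono hB, mul_assoc]
  exact (LamS B).mul_mem (mono_mem_LamS c) (h.left _)

/-- conjugation `F ↦ G⁻¹ F G` preserves `LamS` -/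
theorem conj_mem' (hB : B.transpose = -B) (h : CI G) {F : QSeries B} (hF : F ∈ LamS B) :
    Ring.inverse G * F * G ∈ LamS B := by
  apply sandwich_mem _ hF
  intro c
  rw [mul_mono hB, twist_inverse _ (by rw [h.zero]; exact one_ne_zero), mul_assoc]
  exact (LamS B).mul_mem (mono_mem_LamS c) (h.left' _)

theorem mul (hB : B.transpose = -B) (hG : CI G) (hH : CI H) : CI (G * H) where
  zero := by rw [mul_zero_apply, hG.zero, hH.zero, one_mul]
  left s := by
    rw [inverse_mul' hG.isUnit hH.isUnit, twist_mul]
    have h1 : twist s G * twist s H * (Ring.inverse H * Ring.inverse G) =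
        (twist s G * Ring.inverse G) * (G * (twist s H * Ring.inverse H) * Ring.inverse G) := by
      calc twist s G * twist s H * (Ring.inverse H * Ring.inverse G)
          = twist s G * 1 * (twist s H * Ring.inverse H) * Ring.inverse G := by
            simp only [mul_assoc, one_mul]
        _ = twist s G * (Ring.inverse G * G) * (twist s H * Ring.inverse H) * Ring.inverse G := by
            rw [Ring.inverse_mul_cancel _ hG.isUnit]
        _ = _ := by simp only [mul_assoc]
    rw [h1]
    exact (LamS B).mul_mem (hG.left s) (hG.conj_mem hB (hH.left s))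
  right s := by
    rw [inverse_mul' hG.isUnit hH.isUnit, twist_mul]
    have h1 : Ring.inverse H * Ring.inverse G * (twist s G * twist s H) =
        (Ring.inverse H * (Ring.inverse G * twist s G) * H) * (Ring.inverse H * twist s H) := by
      calc Ring.inverse H * Ring.inverse G * (twist s G * twist s H)
          = Ring.inverse H * (Ring.inverse G * twist s G) * 1 * twist s H := by
            simp only [mul_assoc, one_mul]
        _ = Ring.inverse H * (Ring.inverse G * twist s G) * (H * Ring.inverse H) * twist s H := by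
            rw [Ring.mul_inverse_cancel _ hH.isUnit]
        _ = _ := by simp only [mul_assoc]
    rw [h1]
    exact (LamS B).mul_mem (hH.conj_mem' hB (hG.right s)) (hH.right s)

theorem inv (h : CI G) : CI (Ring.inverse G) where
  zero := inverse_zero_apply h.zero
  left s := by
    rw [twist_inverse _ (by rw [h.zero]; exact one_ne_zero), inverse_inverse' h.isUnit]
    exact h.left' s
  right s := by
    rw [twist_inverse _ (by rw [h.zero]; exact one_ne_zero), inverse_inverse' h.isUnit]
    exact h.right' s

/-- `CI` is closed (coefficientwise). -/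
theorem of_agree (h0 : G 0 = 1) (h : ∀ γ, ∃ G' : QSeries B, CI G' ∧ Agree γ G G') : CI G where
  zero := h0
  left s := by
    apply mem_LamS_of_agree
    intro γ
    obtain ⟨G', h1, h2⟩ := h γ
    exact ⟨_, h1.left s, (h2.twist s).mul (h2.inverse (by rw [h0]; exact one_ne_zero))⟩
  right s := by
    apply mem_LamS_of_agree
    intro γ
    obtain ⟨G', h1, h2⟩ := h γ
    exact ⟨_, h1.right s, (h2.inverse (by rw [h0]; exact one_ne_zero)).mul (h2.twist s)⟩

/-- lowest terms of a `CI` element: `(v^{2 wt s γ} - 1) G γ ∈ Lam` -/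
theorem lowest (h : CI G) {γ : Fin r →₀ ℕ} (hγ : γ ≠ 0) (hlow : ∀ δ, δ < γ → δ ≠ 0 → G δ = 0)
    (s : Fin r → ℤ) : (v ^ (2 * wt s γ) - 1) * G γ ∈ Lam := by
  have hinv : (Ring.inverse G) γ = - G γ := by
    have h1 := congrFun (Ring.mul_inverse_cancel G h.isUnit) γ
    rw [mul_apply_extreme _ _ hγ, one_apply, if_neg hγ, h.zero, inverse_zero_apply h.zero,
      one_mul, mul_one, Finset.sum_eq_zero] at h1
    · linear_combination h1
    · intro p hp
      rw [mem_filter, HasAntidiagonal.mem_antidiagonal] at hp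
      rw [hlow p.1 (lt_of_antidiagonal_fst hp.1 hp.2.2) hp.2.1]
      ring
  have h2 : (twist s G * Ring.inverse G) γ = (v ^ (2 * wt s γ) - 1) * G γ := by
    rw [mul_apply_extreme _ _ hγ, twist_apply_zero, h.zero, inverse_zero_apply h.zero,
      one_mul, mul_one, hinv, Finset.sum_eq_zero]
    · rw [twist_apply]
      ring
    · intro p hp
      rw [mem_filter, HasAntidiagonal.mem_antidiagonal] at hp
      rw [twist_apply, hlow p.1 (lt_of_antidiagonal_fst hp.1 hp.2.2) hp.2.1]
      ring
  rw [← h2]
  exact h.left s γ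

end CI

end

end Vale.Agent.P066.Theta
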