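import Vale.Agent.P066.Theta.H950.Conj
import Vale.Agent.P066.Theta.H863.RayRatio
import Vale.Agent.P066.Theta.H747.QuiverStatement
import Vale.Agent.P066.Theta.H615.Triple

/-!
# `CI` elements on a line: units, and elements with a prescribed leading coefficient
-/

set_option autoImplicit false

open Finset

namespace Vale.Agent.P066.Theta

noncomputable section

variable {r : ℕ} {B : Matrix (Fin r) (Fin r) ℤ}

open QSeries PowerSeries

/-- `Lam` as a subsemiring. -/
abbrev LamSR : Subsemiring K := Lam.toSubsemiring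

theorem zpow_mem_LamSR (n : ℤ) : v ^ n ∈ LamSR := zpow_mem_Lam n

/-- A series on the line of `γ`, all of whose ratios are in `Lam`, is `CI`. -/
theorem ci_line (hB : B.transpose = -B) {γ : Fin r →₀ ℕ} (hγ : γ ≠ 0) (P : PowerSeries K)
    (h0 : coeff 0 P = 1)
    (hP : ∀ s : Fin r → ℤ, ∃ M ∈ UR.psIn LamSR, M * P = rescale (v ^ (2 * wt s γ)) P) :
    CI (Dil.line B γ fun n => coeff n P) := by
  set U : QSeries B := Dil.line B γ fun n => coeff n P with hU
  have hU0 : U 0 = 1 := by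
    have h1 := Dil.line_smul_apply (B := B) hγ (fun n => coeff n P) 0
    rw [zero_smul] at h1
    rw [hU, h1, h0]
  have hu : IsUnit U := isUnit_of_one hU0
  have key : ∀ s : Fin r → ℤ, ∃ M : QSeries B, M ∈ LamS B ∧ M * U = twist s U ∧
      U * M = twist s U := by
    intro s
    obtain ⟨M, hM, hM'⟩ := hP s
    have h1 : Dil.line B γ (fun n => coeff n (M * P)) = twist s U := by
      rw [hM', hU, Dil.twist_line s hγ]
      refine Dil.line_congr γ fun n => ?_
      rw [coeff_rescale, ← zpow_natCast, ← zpow_mul]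
      congr 2
      ring
    refine ⟨Dil.line B γ fun n => coeff n M, ?_, ?_, ?_⟩
    · intro δ
      by_cases h : ∃ n : ℕ, n • γ = δ
      · obtain ⟨n, rfl⟩ := h
        rw [Dil.line_smul_apply hγ]
        exact hM n
      · push Not at h
        rw [Dil.line_apply_of_not _ h]
        exact Lam.zero_mem
    · rw [hU, line_mul_line hB hγ, h1]
    · rw [hU, line_mul_line hB hγ, mul_comm P M, h1]
  refine ⟨hU0, fun s => ?_, fun s => ?_⟩
  · obtain ⟨M, hM, hM', -⟩ := key s
    rw [← hM', mul_assoc, Ring.mul_inverse_cancel _ hu, mul_one]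
    exact hM
  · obtain ⟨M, hM, -, hM'⟩ := key s
    rw [← hM', ← mul_assoc, Ring.inverse_mul_cancel _ hu, one_mul]
    exact hM

/-- one step ratio on both sides gives all ratios -/
theorem ratio_all {P : PowerSeries K} {q : K} (hq : q ≠ 0) (hqL : ∀ k : ℤ, q ^ k ∈ Lam)
    {N N' : PowerSeries K} (hN : N ∈ UR.psIn LamSR) (hN' : N' ∈ UR.psIn LamSR)
    (hNN : N * N' = 1) (h1 : N * P = rescale q P) (k : ℤ) :
    ∃ M ∈ UR.psIn LamSR, M * P = rescale (q ^ k) P := by
  have hres : ∀ (k : ℤ) (F : PowerSeries K), F ∈ UR.psIn LamSR →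
      rescale (q ^ k) F ∈ UR.psIn LamSR := by
    intro k F hF n
    rw [coeff_rescale]
    exact LamSR.mul_mem (LamSR.pow_mem (hqL k) n) (hF n)
  have hcomp : ∀ (a b : K) (F : PowerSeries K), rescale a (rescale b F) = rescale (a * b) F := by
    intro a b F
    ext n
    rw [coeff_rescale, coeff_rescale, coeff_rescale, mul_pow]
    ring
  induction k with
  | zero => exact ⟨1, (UR.psIn LamSR).one_mem, by rw [zpow_zero, rescale_one]; simp⟩
  | succ k ih =>
    obtain ⟨M, hM, hM'⟩ := ih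
    refine ⟨rescale (q ^ (k : ℤ)) N * M, (UR.psIn LamSR).mul_mem (hres _ _ hN) hM, ?_⟩
    rw [mul_assoc, hM', ← map_mul, h1, hcomp, zpow_add_one₀ hq]
  | pred k ih =>
    obtain ⟨M, hM, hM'⟩ := ih
    refine ⟨rescale (q ^ (-(k : ℤ) - 1)) N' * M, (UR.psIn LamSR).mul_mem (hres _ _ hN') hM, ?_⟩
    rw [mul_assoc, hM']
    have h2 : rescale (q ^ (-(k : ℤ))) P =
        rescale (q ^ (-(k : ℤ) - 1)) N * rescale (q ^ (-(k : ℤ) - 1)) P := by
      rw [← map_mul, h1, hcomp, ← zpow_add_one₀ hq, sub_add_cancel]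
    rw [h2, ← mul_assoc, ← map_mul, mul_comm N' N, hNN, map_one, one_mul]

/-- the content of a nonzero dimension vector -/
theorem exists_content {γ : Fin r →₀ ℕ} (hγ : γ ≠ 0) :
    ∃ (m : ℕ) (s0 : Fin r → ℤ), 0 < m ∧ wt s0 γ = m ∧ ∀ s : Fin r → ℤ, ∃ k : ℤ, wt s γ = k * m := by
  let f : (Fin r → ℤ) →+ ℤ :=
    { toFun := fun s => wt s γ
      map_zero' := wt_zero_left γ
      map_add' := fun s s' => wt_add_left s s' γ }
  obtain ⟨a, ha⟩ := Int.subgroup_cyclic f.range
  have hmem : ∀ s : Fin r → ℤ, ∃ k : ℤ, wt s γ = k * a := by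
    intro s
    have h1 : wt s γ ∈ f.range := ⟨s, rfl⟩
    rw [ha, AddSubgroup.mem_closure_singleton] at h1
    obtain ⟨k, hk⟩ := h1
    exact ⟨k, by rw [← hk, smul_eq_mul]⟩
  obtain ⟨s1, hs1⟩ : a ∈ f.range := by
    rw [ha]
    exact AddSubgroup.subset_closure rfl
  have ha0 : a ≠ 0 := by
    rintro rfl
    obtain ⟨i, hi⟩ := Finsupp.ne_iff.1 hγ
    obtain ⟨k, hk⟩ := hmem (Pi.single i 1)
    apply hi
    have h2 : wt (Pi.single i 1) γ = (γ i : ℤ) := by
      unfold wt
      rw [Finset.sum_eq_single i]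
      · simp
      · intro j _ hj
        simp [Pi.single_eq_of_ne hj]
      · intro h
        exact absurd (Finset.mem_univ i) h
    rw [h2, mul_zero] at hk
    exact_mod_cast hk
  rcases lt_or_gt_of_ne ha0 with h | h
  · refine ⟨(-a).toNat, -s1, by omega, ?_, fun s => ?_⟩
    · rw [wt_neg s1 γ]
      have h3 : wt s1 γ = a := hs1
      rw [h3]
      omega
    · obtain ⟨k, hk⟩ := hmem s
      refine ⟨-k, ?_⟩
      rw [hk, Int.toNat_of_nonneg (by omega)]
      ring
  · refine ⟨a.toNat, s1, by omega, ?_, fun s => ?_⟩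
    · have h3 : wt s1 γ = a := hs1
      rw [h3]
      omega
    · obtain ⟨k, hk⟩ := hmem s
      exact ⟨k, by rw [hk, Int.toNat_of_nonneg (by omega)]⟩

theorem vpow_ne_one {n : ℕ} (hn : 0 < n) : v ^ n ≠ 1 := UR.v_pow_ne_one hn

/-- The series `∑ a^n / ∏_{i ≤ n} (q^i - 1) T^n`: `F(qT) = (1 + aT) F(T)`. -/
def leadSer (a q : K) : PowerSeries K :=
  PowerSeries.mk fun n => ∏ i ∈ range n, a / (q ^ (i + 1) - 1)

theorem leadSer_step {a q : K} (hq : ∀ n : ℕ, 0 < n → q ^ n ≠ 1) :
    (1 + C a * X ^ 1) * leadSer a q = rescale q (leadSer a q) := by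
  ext n
  rw [coeff_rescale, UR.coeff_binom_mul]
  unfold leadSer
  rw [coeff_mk]
  rcases n with _ | n
  · simp
  · rw [if_pos (by omega), Nat.add_sub_cancel, coeff_mk, prod_range_succ]
    have h1 : q ^ (n + 1) - 1 ≠ 0 := sub_ne_zero.2 (hq (n + 1) (Nat.succ_pos n))
    field_simp
    ring

/-- `CI` elements on the line of `γ` with a prescribed coefficient at `γ`. -/
theorem exists_ci_leading (hB : B.transpose = -B) {γ : Fin r →₀ ℕ} (hγ : γ ≠ 0) {c : K}
    (hc : ∀ s : Fin r → ℤ, (v ^ (2 * wt s γ) - 1) * c ∈ Lam) :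
    ∃ U : QSeries B, CI U ∧ (∀ η, U η ≠ 0 → ∃ n : ℕ, η = n • γ) ∧ U γ = c := by
  obtain ⟨m, s0, hm, hs0, hall⟩ := exists_content hγ
  set q : K := v ^ (2 * m) with hqdef
  set a : K := (q - 1) * c with hadef
  have hqn : ∀ n : ℕ, 0 < n → q ^ n ≠ 1 := by
    intro n hn
    rw [hqdef, ← pow_mul]
    exact vpow_ne_one (by positivity)
  have hq0 : q ≠ 0 := pow_ne_zero _ v_ne_zero
  have hqL : ∀ k : ℤ, q ^ k ∈ Lam := by
    intro k
    rw [hqdef, ← zpow_natCast, ← zpow_mul]
    exact zpow_mem_Lam _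
  have haL : a ∈ Lam := by
    have h1 := hc s0
    rw [hs0] at h1
    have h2 : v ^ (2 * (m : ℤ)) = q := by
      rw [hqdef, ← zpow_natCast]
      push_cast
      rfl
    rwa [h2] at h1
  have hN : (1 + C a * X ^ 1 : PowerSeries K) ∈ UR.psIn LamSR := UR.binom_mem haL 1
  have hN' : UR.geo (-a) 1 ∈ UR.psIn LamSR := UR.geo_mem (S := LamSR) (Lam.neg_mem haL) 1
  have hNN : (1 + C a * X ^ 1) * UR.geo (-a) 1 = (1 : PowerSeries K) := by
    have h1 := UR.geo_mul (-a) (m := 1) one_pos
    rw [neg_neg] at h1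
    rw [mul_comm]
    exact h1
  refine ⟨Dil.line B γ fun n => coeff n (leadSer a q), ?_, ?_, ?_⟩
  · apply ci_line hB hγ
    · unfold leadSer
      rw [coeff_mk, range_zero, prod_empty]
    · intro s
      obtain ⟨k, hk⟩ := hall s
      obtain ⟨M, hM, hM'⟩ := ratio_all hq0 hqL hN hN' hNN (leadSer_step hqn) k
      refine ⟨M, hM, ?_⟩
      rw [hM', hk, hqdef, ← zpow_natCast v (2 * m), ← zpow_mul]
      congr 3
      push_cast
      ring
  · intro η hη
    by_contra h
    push Not at h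
    exact hη (Dil.line_apply_of_not _ fun n hn => h n hn.symm)
  · have h1 := Dil.line_smul_apply (B := B) hγ (fun n => coeff n (leadSer a q)) 1
    rw [one_smul] at h1
    rw [h1]
    unfold leadSer
    rw [coeff_mk, range_one, prod_singleton, zero_add, pow_one, hadef]
    have h2 : q - 1 ≠ 0 := by
      have := hqn 1 one_pos
      rw [pow_one] at this
      exact sub_ne_zero.2 this
    field_simp

/-- units are `CI` -/
theorem ci_unitQ (hB : B.transpose = -B) (e : Bool) (j : ℤ) {c : Fin r →₀ ℕ} (hc : c ≠ 0) :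
    CI (unitQ B e j c) := by
  have h1 : unitQ B e j c = Dil.line B c fun n => coeff n (unitSeries (e, j, 1)) := by
    unfold unitQ Dil.line
    funext γ
    refine sum_congr rfl fun n _ => ?_
    split_ifs
    · have h2 := UR.coeff_unitSeries_mul e j one_pos n
      rw [mul_one] at h2
      exact h2.symm
    · rfl
  rw [h1]
  apply ci_line hB hc
  · exact UR.coeff_zero_unitSeries (e, j, 1) one_pos
  · intro s
    have hv : ∀ n : ℤ, v ^ n ∈ LamSR := zpow_mem_LamSR
    have hq0 : (v ^ 2 : K) ≠ 0 := pow_ne_zero _ v_ne_zero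
    have hqL : ∀ k : ℤ, (v ^ 2) ^ k ∈ Lam := by
      intro k
      rw [← zpow_natCast, ← zpow_mul]
      exact zpow_mem_Lam _
    have hstep : rescale (v ^ 2) (unitSeries (e, j, 1)) = unitSeries (e, j + 2, 1) := by
      have h3 := UR.rescale_unitSeries e j one_pos 1
      rw [mul_one] at h3
      rw [h3]
      norm_num
    have hk : ∃ M ∈ UR.psIn LamSR, M * unitSeries (e, j, 1) =
        rescale ((v ^ 2) ^ (wt s c)) (unitSeries (e, j, 1)) := by
      cases e with
      | false =>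
        refine ratio_all hq0 hqL (UR.binom_mem (S := LamSR) (hv (j + 1)) 1)
          (UR.geo_mem (S := LamSR) (Lam.neg_mem (zpow_mem_Lam (j + 1))) 1) ?_ ?_ _
        · have h4 := UR.geo_mul (-(v ^ (j + 1))) (m := 1) one_pos
          rw [neg_neg] at h4
          rw [mul_comm]
          exact h4
        · rw [hstep, ← UR.unit_false_step _ one_pos]
      | true =>
        refine ratio_all hq0 hqL (UR.geo_mem (S := LamSR) (hv (j + 2)) 1)
          (UR.binom_mem (S := LamSR) (Lam.neg_mem (zpow_mem_Lam (j + 2))) 1) ?_ ?_ _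
        · exact UR.geo_mul (v ^ (j + 2)) one_pos
        · rw [hstep, UR.unit_true_step _ one_pos, ← mul_assoc, UR.geo_mul _ one_pos, one_mul]
    obtain ⟨M, hM, hM'⟩ := hk
    refine ⟨M, hM, ?_⟩
    rw [hM', ← zpow_natCast v 2, ← zpow_mul]
    congr 3

theorem ci_list_prod (hB : B.transpose = -B) (l : List (QSeries B)) (h : ∀ F ∈ l, CI F) :
    CI l.prod := by
  induction l with
  | nil =>
    rw [List.prod_nil]
    exact CI.one
  | cons F l ih =>
    rw [List.prod_cons]
    exact (h F List.mem_cons_self).mul hB (ih fun G hG => h G (List.mem_cons_of_mem F hG))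

theorem quivB_skew {m : ℕ} (a : Fin m → Fin m → ℕ) : (quivB a).transpose = -(quivB a) := by
  ext i j
  simp [quivB]

theorem ci_quivProd {m : ℕ} (a : Fin m → Fin m → ℕ) (e : Fin m → Bool) : CI (quivProd a e) := by
  apply ci_list_prod (quivB_skew a)
  intro F hF
  rw [List.mem_ofFn] at hF
  obtain ⟨i, rfl⟩ := hF
  exact ci_unitQ (quivB_skew a) _ _ (by simp)

end

end Vale.Agent.P066.Theta
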