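import Vale.Agent.P066.Theta.H950.Lead

/-!
# The factors of a `CI` element are `CI`
-/

set_option autoImplicit false

open Finset

namespace Vale.Agent.P066.Theta

noncomputable section

variable {r : ℕ} {B : Matrix (Fin r) (Fin r) ℤ}

open QSeries

/-- equality in degrees `< n` -/
def LowEq (n : ℕ) (f g : QSeries B) : Prop := ∀ γ, deg γ < n → f γ = g γ

theorem LowEq.refl' {n : ℕ} {f : QSeries B} : LowEq n f f := fun _ _ => rfl

theorem LowEq.symm {n : ℕ} {f g : QSeries B} (h : LowEq n f g) : LowEq n g f :=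
  fun γ hγ => (h γ hγ).symm

theorem LowEq.trans {n : ℕ} {f g k : QSeries B} (h : LowEq n f g) (h' : LowEq n g k) :
    LowEq n f k := fun γ hγ => (h γ hγ).trans (h' γ hγ)

theorem LowEq.agree {n : ℕ} {f g : QSeries B} (h : LowEq n f g) {γ : Fin r →₀ ℕ}
    (hγ : deg γ < n) : Agree γ f g := fun η hη => h η ((deg_mono hη).trans_lt hγ)

theorem LowEq.mul {n : ℕ} {f f' g g' : QSeries B} (h : LowEq n f f') (h' : LowEq n g g') :
    LowEq n (f * g) (f' * g') := fun γ hγ => ((h.agree hγ).mul (h'.agree hγ)) γ le_rfl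

theorem LowEq.inverse {n : ℕ} {f f' : QSeries B} (h : LowEq n f f') (h0 : f 0 ≠ 0) :
    LowEq n (Ring.inverse f) (Ring.inverse f') := fun γ hγ => ((h.agree hγ).inverse h0) γ le_rfl

/-- the first order rule -/
theorem LowEq.mul_top {n : ℕ} {f f' g g' : QSeries B} (h : LowEq n f f') (h' : LowEq n g g')
    (hf : f 0 = 1) (hf' : f' 0 = 1) (hg : g 0 = 1) (hg' : g' 0 = 1) {γ : Fin r →₀ ℕ}
    (hγ : deg γ = n) (hn : 0 < n) :
    (f * g) γ - (f' * g') γ = (f γ - f' γ) + (g γ - g' γ) := by
  have hγ0 : γ ≠ 0 := deg_pos.1 (by omega)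
  rw [mul_apply_extreme _ _ hγ0, mul_apply_extreme _ _ hγ0, hf, hf', hg, hg']
  have h1 : ∑ p ∈ (antidiagonal γ).filter (fun p => p.1 ≠ 0 ∧ p.2 ≠ 0),
        v ^ omega B (toZ p.1) (toZ p.2) * f p.1 * g p.2 =
      ∑ p ∈ (antidiagonal γ).filter (fun p => p.1 ≠ 0 ∧ p.2 ≠ 0),
        v ^ omega B (toZ p.1) (toZ p.2) * f' p.1 * g' p.2 := by
    refine sum_congr rfl fun p hp => ?_
    rw [mem_filter, HasAntidiagonal.mem_antidiagonal] at hp
    rw [h p.1 (by rw [← hγ]; exact deg_strictMono (lt_of_antidiagonal_fst hp.1 hp.2.2)),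
      h' p.2 (by rw [← hγ]; exact deg_strictMono (lt_of_antidiagonal_snd hp.1 hp.2.1))]
  rw [h1]
  ring

/-- a `CI` element with prescribed coefficients in degree `n` on a finite list of exponents -/
theorem exists_ci_list (hB : B.transpose = -B) {n : ℕ} (hn : 0 < n) (H : (Fin r →₀ ℕ) → K)
    (S : AddSubmonoid (Fin r →₀ ℕ)) (l : List (Fin r →₀ ℕ)) (hnd : l.Nodup)
    (hl : ∀ γ ∈ l, deg γ = n ∧ γ ∈ S ∧ ∀ s : Fin r → ℤ, (v ^ (2 * wt s γ) - 1) * H γ ∈ Lam) :
    ∃ P : QSeries B, CI P ∧ P ∈ supp (B := B) S ∧ LowEq n P 1 ∧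
      ∀ η, deg η = n → P η = if η ∈ l then H η else 0 := by
  classical
  induction l with
  | nil =>
    refine ⟨1, CI.one, (supp S).one_mem, LowEq.refl', fun η hη => ?_⟩
    have h1 : η ≠ 0 := deg_pos.1 (by omega)
    simp [one_apply, h1]
  | cons γ l ih =>
    obtain ⟨P, hP, hPS, hP1, hPc⟩ := ih (List.nodup_cons.1 hnd).2
      fun δ hδ => hl δ (List.mem_cons_of_mem γ hδ)
    obtain ⟨hγn, hγS, hγc⟩ := hl γ List.mem_cons_self
    have hγ0 : γ ≠ 0 := deg_pos.1 (by omega)
    obtain ⟨U, hU, hUs, hUc⟩ := exists_ci_leading hB hγ0 hγc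
    have hU1 : LowEq n U 1 := by
      intro η hη
      by_cases h0 : η = 0
      · rw [h0, hU.zero, one_zero]
      · rw [one_apply, if_neg h0]
        by_contra hne
        obtain ⟨k, rfl⟩ := hUs η hne
        rw [deg_smul, hγn] at hη
        rcases Nat.eq_zero_or_pos k with rfl | hk
        · exact h0 (zero_smul ℕ γ)
        · have : n ≤ k * n := Nat.le_mul_of_pos_left n hk
          omega
    have hUtop : ∀ η, deg η = n → U η = if η = γ then H γ else 0 := by
      intro η hη
      split_ifs with h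
      · rw [h, hUc]
      · by_contra hne
        obtain ⟨k, rfl⟩ := hUs η hne
        rw [deg_smul, hγn] at hη
        have hk : k = 1 := by
          rcases k with _ | _ | k
          · simp at hη
            omega
          · rfl
          · exfalso
            have : 2 * n ≤ (k + 1 + 1) * n := Nat.mul_le_mul_right n (by omega)
            omega
        rw [hk, one_smul] at h
        exact h rfl
    refine ⟨U * P, hU.mul hB hP, ?_, ?_, ?_⟩
    · refine (supp S).mul_mem ?_ hPS
      intro η hη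
      obtain ⟨k, rfl⟩ := hUs η hη
      exact S.nsmul_mem hγS k
    · have := hU1.mul hP1
      rwa [mul_one] at this
    · intro η hη
      have h1 := hU1.mul_top hP1 hU.zero one_zero hP.zero one_zero hη hn
      have hη0 : η ≠ 0 := deg_pos.1 (by omega)
      rw [mul_one, one_apply, if_neg hη0, sub_zero, sub_zero, sub_zero, hUtop η hη,
        hPc η hη] at h1
      rw [h1]
      have hnot : γ ∉ l := (List.nodup_cons.1 hnd).1
      by_cases h2 : η = γ
      · subst h2
        rw [if_pos rfl, if_neg hnot, add_zero, if_pos List.mem_cons_self]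
      · rw [if_neg h2, zero_add]
        by_cases h3 : η ∈ l
        · rw [if_pos h3, if_pos (List.mem_cons_of_mem γ h3)]
        · rw [if_neg h3, if_neg]
          rw [List.mem_cons]
          tauto

/-- the finite set of exponents of degree `n` -/
def degSet (r n : ℕ) : Finset (Fin r →₀ ℕ) :=
  (Finset.Iic (Finsupp.equivFunOnFinite.symm fun _ => n)).filter fun γ => deg γ = n

theorem mem_degSet {n : ℕ} {γ : Fin r →₀ ℕ} : γ ∈ degSet r n ↔ deg γ = n := by
  unfold degSet
  rw [mem_filter, Finset.mem_Iic]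
  constructor
  · exact fun h => h.2
  · intro h
    refine ⟨fun i => ?_, h⟩
    show γ i ≤ n
    rw [← h]
    exact Finset.single_le_sum (f := fun i => γ i) (fun _ _ => Nat.zero_le _) (mem_univ i)

/-- `CI` approximations of the three factors -/
theorem exists_approx (hB : B.transpose = -B) {g gp g0 gm : QSeries B} (hg : CI g)
    {Q : Fin r → ℤ} (hT : IsTriple g gp g0 gm Q) (n : ℕ) :
    ∃ p z m : QSeries B, CI p ∧ CI z ∧ CI m ∧ p ∈ supp (B := B) (posSub Q) ∧
      z ∈ supp (B := B) (zeroSub Q) ∧ m ∈ supp (B := B) (negSub Q) ∧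
      LowEq n p gp ∧ LowEq n z g0 ∧ LowEq n m gm := by
  classical
  induction n with
  | zero =>
    exact ⟨1, 1, 1, CI.one, CI.one, CI.one, Subalgebra.one_mem _, Subalgebra.one_mem _,
      Subalgebra.one_mem _, fun _ h => absurd h (Nat.not_lt_zero _),
      fun _ h => absurd h (Nat.not_lt_zero _), fun _ h => absurd h (Nat.not_lt_zero _)⟩
  | succ n ih =>
    rcases Nat.eq_zero_or_pos n with rfl | hn
    · refine ⟨1, 1, 1, CI.one, CI.one, CI.one, Subalgebra.one_mem _, Subalgebra.one_mem _,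
        Subalgebra.one_mem _, ?_, ?_, ?_⟩ <;>
      · intro γ hγ
        have h0 : γ = 0 := deg_eq_zero.1 (by omega)
        rw [h0, one_zero]
        first
          | exact hT.gp_zero.symm
          | exact hT.g0_zero.symm
          | exact hT.gm_zero.symm
    obtain ⟨p, z, m, hp, hz, hm, hpS, hzS, hmS, hp1, hz1, hm1⟩ := ih
    set G' : QSeries B := p * z * m with hG'
    have hG'ci : CI G' := (hp.mul hB hz).mul hB hm
    have hGG : LowEq n G' g := by
      rw [hT.eq]
      exact (hp1.mul hz1).mul hm1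
    set H : QSeries B := Ring.inverse G' * g with hH
    have hHci : CI H := hG'ci.inv.mul hB hg
    have hH1 : LowEq n H 1 := by
      have h1 := (LowEq.refl' (n := n) (f := Ring.inverse G')).mul hGG
      rw [Ring.inverse_mul_cancel _ hG'ci.isUnit] at h1
      exact h1.symm
    have hHtop : ∀ γ, deg γ = n →
        H γ = (gp γ - p γ) + (g0 γ - z γ) + (gm γ - m γ) := by
      intro γ hγ
      have hγ0 : γ ≠ 0 := deg_pos.1 (by omega)
      have e1 : G' * H = g := by
        rw [hH, ← mul_assoc, Ring.mul_inverse_cancel _ hG'ci.isUnit, one_mul]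
      have e2 := (LowEq.refl' (n := n) (f := G')).mul_top hH1 hG'ci.zero hG'ci.zero
        hHci.zero one_zero hγ hn
      rw [e1, mul_one, sub_self, zero_add, one_apply, if_neg hγ0, sub_zero] at e2
      have e3 := (hp1.mul hz1).mul_top hm1
        (by rw [mul_zero_apply, hp.zero, hz.zero, one_mul])
        (by rw [mul_zero_apply, hT.gp_zero, hT.g0_zero, one_mul]) hm.zero hT.gm_zero hγ hn
      have e4 := hp1.mul_top hz1 hp.zero hT.gp_zero hz.zero hT.g0_zero hγ hn
      rw [← hT.eq] at e3
      linear_combination -e2 - e3 - e4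
    have hHL : ∀ γ, deg γ = n → ∀ s : Fin r → ℤ, (v ^ (2 * wt s γ) - 1) * H γ ∈ Lam := by
      intro γ hγ s
      have hγ0 : γ ≠ 0 := deg_pos.1 (by omega)
      apply hHci.lowest hγ0
      intro δ hδ hδ0
      have h1 := hH1 δ (by rw [← hγ]; exact deg_strictMono hδ)
      rw [h1, one_apply, if_neg hδ0]
    -- corrections
    have mk : ∀ (S : AddSubmonoid (Fin r →₀ ℕ)) (C : (Fin r →₀ ℕ) → Prop),
        (∀ γ, C γ → γ ∈ S) →
        ∃ P : QSeries B, CI P ∧ P ∈ supp (B := B) S ∧ LowEq n P 1 ∧
          ∀ η, deg η = n → P η = if C η then H η else 0 := by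
      intro S C hC
      obtain ⟨P, h1, h2, h3, h4⟩ := exists_ci_list hB hn (fun γ => H γ) S
        ((degSet r n).filter C).toList (Finset.nodup_toList _) (by
          intro γ hγ
          rw [Finset.mem_toList, mem_filter, mem_degSet] at hγ
          exact ⟨hγ.1, hC γ hγ.2, hHL γ hγ.1⟩)
      refine ⟨P, h1, h2, h3, fun η hη => ?_⟩
      rw [h4 η hη]
      congr 1
      rw [Finset.mem_toList, mem_filter, mem_degSet]
      simp [hη]
    obtain ⟨Pp, a1, a2, a3, a4⟩ := mk (posSub Q) (fun γ => 0 < wt Q γ)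
      (fun γ h => mem_posSub.2 (Or.inr h))
    obtain ⟨Pz, b1, b2, b3, b4⟩ := mk (zeroSub Q) (fun γ => wt Q γ = 0)
      (fun γ h => mem_zeroSub.2 h)
    obtain ⟨Pm, c1, c2, c3, c4⟩ := mk (negSub Q) (fun γ => wt Q γ < 0)
      (fun γ h => mem_negSub.2 (Or.inr h))
    have step : ∀ (f P : QSeries B), f 0 = 1 → P 0 = 1 → LowEq n P 1 →
        LowEq n (f * P) f ∧ ∀ η, deg η = n → (f * P) η = f η + P η := by
      intro f P hf hP hP1
      constructor
      · have := (LowEq.refl' (n := n) (f := f)).mul hP1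
        rwa [mul_one] at this
      · intro η hη
        have hη0 : η ≠ 0 := deg_pos.1 (by omega)
        have e := (LowEq.refl' (n := n) (f := f)).mul_top hP1 hf hf hP one_zero hη hn
        rw [mul_one, sub_self, zero_add, one_apply, if_neg hη0, sub_zero] at e
        linear_combination e
    obtain ⟨sp1, sp2⟩ := step p Pp hp.zero a1.zero a3
    obtain ⟨sz1, sz2⟩ := step z Pz hz.zero b1.zero b3
    obtain ⟨sm1, sm2⟩ := step m Pm hm.zero c1.zero c3
    -- vanishing outside the supports
    have zp : ∀ η : Fin r →₀ ℕ, η ≠ 0 → ¬ 0 < wt Q η → gp η = 0 ∧ p η = 0 := by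
      intro η h0 h1
      constructor
      · by_contra h2
        exact h1 (hT.gp_supp η h0 h2)
      · by_contra h2
        rcases mem_posSub.1 (hpS η h2) with h3 | h3
        · exact h0 h3
        · exact h1 h3
    have zz : ∀ η : Fin r →₀ ℕ, wt Q η ≠ 0 → g0 η = 0 ∧ z η = 0 := by
      intro η h1
      constructor
      · by_contra h2
        exact h1 (hT.g0_supp η h2)
      · by_contra h2
        exact h1 (mem_zeroSub.1 (hzS η h2))
    have zm : ∀ η : Fin r →₀ ℕ, η ≠ 0 → ¬ wt Q η < 0 → gm η = 0 ∧ m η = 0 := by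
      intro η h0 h1
      constructor
      · by_contra h2
        exact h1 (hT.gm_supp η h0 h2)
      · by_contra h2
        rcases mem_negSub.1 (hmS η h2) with h3 | h3
        · exact h0 h3
        · exact h1 h3
    refine ⟨p * Pp, z * Pz, m * Pm, hp.mul hB a1, hz.mul hB b1, hm.mul hB c1,
      (supp _).mul_mem hpS a2, (supp _).mul_mem hzS b2, (supp _).mul_mem hmS c2, ?_, ?_, ?_⟩
    · intro η hη
      rcases Nat.lt_or_ge (deg η) n with h | h
      · rw [sp1 η h, hp1 η h]
      · have hη' : deg η = n := by omega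
        have hη0 : η ≠ 0 := deg_pos.1 (by omega)
        rw [sp2 η hη', a4 η hη']
        by_cases hQ : 0 < wt Q η
        · rw [if_pos hQ, hHtop η hη', (zz η (by omega)).1, (zz η (by omega)).2,
            (zm η hη0 (by omega)).1, (zm η hη0 (by omega)).2]
          ring
        · rw [if_neg hQ, (zp η hη0 hQ).1, (zp η hη0 hQ).2, add_zero]
    · intro η hη
      rcases Nat.lt_or_ge (deg η) n with h | h
      · rw [sz1 η h, hz1 η h]
      · have hη' : deg η = n := by omega
        have hη0 : η ≠ 0 := deg_pos.1 (by omega)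
        rw [sz2 η hη', b4 η hη']
        by_cases hQ : wt Q η = 0
        · rw [if_pos hQ, hHtop η hη', (zp η hη0 (by omega)).1, (zp η hη0 (by omega)).2,
            (zm η hη0 (by omega)).1, (zm η hη0 (by omega)).2]
          ring
        · rw [if_neg hQ, (zz η hQ).1, (zz η hQ).2, add_zero]
    · intro η hη
      rcases Nat.lt_or_ge (deg η) n with h | h
      · rw [sm1 η h, hm1 η h]
      · have hη' : deg η = n := by omega
        have hη0 : η ≠ 0 := deg_pos.1 (by omega)
        rw [sm2 η hη', c4 η hη']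
        by_cases hQ : wt Q η < 0
        · rw [if_pos hQ, hHtop η hη', (zz η (by omega)).1, (zz η (by omega)).2,
            (zp η hη0 (by omega)).1, (zp η hη0 (by omega)).2]
          ring
        · rw [if_neg hQ, (zm η hη0 hQ).1, (zm η hη0 hQ).2, add_zero]

/-- **The three factors of a `CI` element are `CI`.** -/
theorem ci_triple (hB : B.transpose = -B) {g gp g0 gm : QSeries B} (hg : CI g)
    {Q : Fin r → ℤ} (hT : IsTriple g gp g0 gm Q) : CI gp ∧ CI g0 ∧ CI gm := by
  refine ⟨CI.of_agree hT.gp_zero fun γ => ?_, CI.of_agree hT.g0_zero fun γ => ?_,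
    CI.of_agree hT.gm_zero fun γ => ?_⟩
  · obtain ⟨p, z, m, hp, -, -, -, -, -, h, -, -⟩ := exists_approx hB hg hT (deg γ + 1)
    exact ⟨p, hp, (h.agree (Nat.lt_succ_self _)).symm⟩
  · obtain ⟨p, z, m, -, hz, -, -, -, -, -, h, -⟩ := exists_approx hB hg hT (deg γ + 1)
    exact ⟨z, hz, (h.agree (Nat.lt_succ_self _)).symm⟩
  · obtain ⟨p, z, m, -, -, hm, -, -, -, -, -, h⟩ := exists_approx hB hg hT (deg γ + 1)
    exact ⟨m, hm, (h.agree (Nat.lt_succ_self _)).symm⟩

end

end Vale.Agent.P066.Theta
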